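import Vale.Agent.P126.Neg.Bodies
import Vale.Agent.P126.Neg.Class
import Vale.Agent.P126.Neg.Count
import Vale.Agent.P126.Neg.Degree
import Vale.Agent.P126.Neg.Pairs
import Vale.Agent.P126.Neg.Sample
import Vale.Agent.P126.Neg.Force.Final

/-!
The duality conjecture for metric entropy is false, in both directions and for every choice of
the constants.
-/

namespace Vale.Agent.Results.P126.DualityFails

open Vale.Agent.P126
open scoped Pointwise

theorem result :
    (¬ ∃ a b : ℝ, 1 ≤ a ∧ 1 ≤ b ∧ ∀ n : ℕ, 1 ≤ n → ∀ K L : Set (EuclideanSpace ℝ (Fin n)),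
      IsBody K → IsBody L →
        (1 / b) * Real.log (covNum (polar L) (a • polar K)) ≤ Real.log (covNum K L) ∧
          Real.log (covNum K L) ≤ b * Real.log (covNum (polar L) (a⁻¹ • polar K))) ∧
    (∀ a b : ℝ, 0 < a → 0 < b →
      (∃ n : ℕ, 1 ≤ n ∧ ∃ K L : Set (EuclideanSpace ℝ (Fin n)), IsBody K ∧ IsBody L ∧
        b * Real.log (covNum (polar L) (a⁻¹ • polar K)) < Real.log (covNum K L)) ∧
      (∃ n : ℕ, 1 ≤ n ∧ ∃ K L : Set (EuclideanSpace ℝ (Fin n)), IsBody K ∧ IsBody L ∧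
        b * Real.log (covNum K L) < Real.log (covNum (polar L) (a • polar K)))) := by
  have hC : Neg.ClassStmt := Neg.class_of Neg.tournStmt Neg.codeStmt Neg.minDenseStmt Neg.radStmt
    (Neg.Force.approxStmt Neg.pairsStmt Neg.sampleStmt Neg.minDenseStmt)
  refine ⟨?_, fun a b ha hb => ⟨Neg.exists_pair hC Neg.approxPointStmt ha hb,
    Neg.exists_pair_rev hC Neg.approxPointStmt ha hb⟩⟩
  rintro ⟨a, b, ha, hb, h⟩
  obtain ⟨n, hn, K, L, hK, hL, hlt⟩ := Neg.exists_pair hC Neg.approxPointStmt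
    (zero_lt_one.trans_le ha) (zero_lt_one.trans_le hb)
  exact absurd (h n hn K L hK hL).2 (not_le.2 hlt)

end Vale.Agent.Results.P126.DualityFails
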