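import Vale.Agent.P126.Power.Scales
import Vale.Agent.P126.Tilt.Main

/-!
Metric entropy duality: a linear bound at scales polylogarithmic in the covering numbers, and
every exponent above one at a constant scale.
-/

namespace Vale.Agent.Results.P126.EntropyDuality

open Vale.Agent.P126
open scoped Pointwise

theorem result : ∃ C : ℝ, 1 ≤ C ∧
    ∀ (n : ℕ) (K L : Set (EuclideanSpace ℝ (Fin n))), IsBody K → IsBody L →
      (∀ a : ℝ, C * Real.log (2 + Real.log (covNum (polar L) (a⁻¹ • polar K))) ^ 4 ≤ a →
        Real.log (covNum K L) ≤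
          C * (1 + Real.log (2 + Real.log (covNum (polar L) (a⁻¹ • polar K))) / Real.log a) *
            Real.log (covNum (polar L) (a⁻¹ • polar K))) ∧
      (∀ a : ℝ, C * Real.log (2 + Real.log (covNum K L)) ^ 4 ≤ a →
        Real.log (covNum (polar L) (a • polar K)) ≤
          C * (1 + Real.log (2 + Real.log (covNum K L)) / Real.log a) *
            Real.log (covNum K L)) ∧
      (∀ R : ℕ, 1 ≤ R →
        Real.log (covNum K L) ≤ C * (R : ℝ) ^ 3 *
            Real.log (covNum (polar L) ((4096 * (R : ℝ))⁻¹ • polar K)) ^ (1 + 2 / (R : ℝ)) ∧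
        Real.log (covNum (polar L) ((4096 * (R : ℝ)) • polar K)) ≤ C * (R : ℝ) ^ 3 *
            Real.log (covNum K L) ^ (1 + 2 / (R : ℝ))) := by
  have hC : (10 : ℝ) ^ 15 ≤ 13 * Power.stepConst := by norm_num [Power.stepConst]
  refine ⟨13 * Power.stepConst, by norm_num [Power.stepConst], fun n K L hK hL =>
    ⟨fun a ha => ?_, fun a ha => ?_, fun R hR => ⟨Power.power_duality hK hL R hR, ?_⟩⟩⟩
  · set H := Real.log (covNum (polar L) (a⁻¹ • polar K))
    have hH : 0 ≤ H := Real.log_natCast_nonneg _
    have hl : 0 ≤ Real.log (2 + H) := Real.log_nonneg (by linarith)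
    have h4 := mul_le_mul_of_nonneg_right hC (pow_nonneg hl 4)
    have hpos : 0 < Real.log (2 + H) := Real.log_pos (by linarith)
    have hla : 0 ≤ Real.log a := Real.log_nonneg (by
      have : (Real.log 2) ^ 4 ≤ Real.log (2 + H) ^ 4 := pow_le_pow_left₀
        (Real.log_nonneg one_le_two) (Real.log_le_log two_pos (by linarith)) 4
      nlinarith [pow_le_pow_left₀ (by norm_num : (0 : ℝ) ≤ 0.69)
        (show (0.69 : ℝ) ≤ Real.log 2 by linarith [Real.log_two_gt_d9]) 4])
    refine (Tilt.tilt_duality hK hL (a := a) (h4.trans ha)).trans ?_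
    refine mul_le_mul_of_nonneg_right (mul_le_mul_of_nonneg_right ?_ ?_) hH
    · linarith
    · linarith [div_nonneg hl hla]
  · set H := Real.log (covNum K L) with hHdef
    have hH : 0 ≤ H := Real.log_natCast_nonneg _
    have hl : 0 ≤ Real.log (2 + H) := Real.log_nonneg (by linarith)
    have h4 := mul_le_mul_of_nonneg_right hC (pow_nonneg hl 4)
    have h69 : (0.22 : ℝ) ≤ Real.log (2 + H) ^ 4 :=
      le_trans (by norm_num) (pow_le_pow_left₀ (by norm_num : (0 : ℝ) ≤ 0.69) (le_trans
        (by linarith [Real.log_two_gt_d9]) (Real.log_le_log two_pos (by linarith))) 4)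
    have ha1 : 1 ≤ a := by linarith
    have ha0 : a ≠ 0 := by linarith
    have key : Real.log (covNum (polar (a • polar K)) (a⁻¹ • polar (polar L))) = H := by
      rw [polar_smul ha0, hK.polar_polar, hL.polar_polar,
        covNum_smul hK.2.1 hL (inv_ne_zero ha0), hHdef]
    have h := Tilt.tilt_duality hL.isBody_polar (hK.isBody_polar.smul ha0) (a := a)
      (by rw [key]; exact h4.trans ha)
    rw [key] at h
    refine h.trans (mul_le_mul_of_nonneg_right (mul_le_mul_of_nonneg_right ?_ ?_) hH)
    · linarith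
    · linarith [div_nonneg hl (Real.log_nonneg ha1)]
  · have hR0 : (4096 * (R : ℝ)) ≠ 0 := by
      have : (1 : ℝ) ≤ R := by exact_mod_cast hR
      positivity
    have h := Power.power_duality hL.isBody_polar (hK.isBody_polar.smul hR0) R hR
    rw [polar_smul hR0, hK.polar_polar, hL.polar_polar,
      covNum_smul hK.2.1 hL (inv_ne_zero hR0)] at h
    exact h

end Vale.Agent.Results.P126.EntropyDuality
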